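import Vale.Agent.P127.Main

/-! # P127R: robust form of the sticky theorem in `ℝ⁴`. -/

namespace Vale.Agent.P127

open Finset MeasureTheory
open scoped Classical

theorem pdim_rb {X : Type} [PseudoMetricSpace X] {A : Set X} {s : ℝ} (hs : 0 < s)
    (h1 : pdim A < ((3 + s.toNNReal : NNReal) : ENNReal)) :
    ∃ B : ℕ → Set X, A ⊆ ⋃ n, B n ∧ ∀ n, ∃ C : ℝ, ∀ r : ℝ, 0 < r → r ≤ 1 → ∃ F : Finset X,
      (F.card : ℝ) ≤ C * r ^ (-(3 + s)) ∧ B n ⊆ ⋃ p ∈ F, Metric.closedBall p r := by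
  unfold pdim at h1
  simp only [iInf_lt_iff] at h1
  obtain ⟨B, hB, h2⟩ := h1
  refine ⟨B, hB, fun n => ?_⟩
  have h3 := (le_iSup (fun n => ubd (B n)) n).trans_lt h2
  unfold ubd at h3
  simp only [iInf_lt_iff] at h3
  obtain ⟨s', ⟨C, hC⟩, h4⟩ := h3
  refine ⟨|C|, fun r hr hr1 => ?_⟩
  obtain ⟨F, h5, h6⟩ := hC r hr hr1
  refine ⟨F, h5.trans ?_, h6⟩
  have h7 : (s' : ℝ) ≤ 3 + s := by
    have h8 := NNReal.coe_lt_coe.2 (ENNReal.coe_lt_coe.1 h4)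
    rw [NNReal.coe_add, Real.coe_toNNReal _ hs.le] at h8
    exact h8.le
  exact mul_le_mul (le_abs_self C) (Real.rpow_le_rpow_of_exponent_ge hr hr1 (by linarith))
    (by positivity) (abs_nonneg C)

theorem geo_rb (K : Set E4) (a : Metric.sphere (0 : E4) 1 → E4)
    (hK : ∀ e, ∀ t ∈ Set.Icc (0 : ℝ) 1, a e + t • (e : E4) ∈ K)
    {s : ℝ} (hs0 : 0 < s) (hs : pdim (Set.range fun e => lineOf (a e) (e : E4)) <
      ((3 + s.toNNReal : NNReal) : ENNReal)) :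
    ∃ U x K' C, Fam U x K' C s ∧ dimH K' ≤ dimH K := by
  have he : ∀ p : V 3, ∃ e : Metric.sphere (0 : E4) 1, ‖p‖ ≤ 1 → Slope e p := fun p => by
    by_cases hp : ‖p‖ ≤ 1
    · obtain ⟨e, h⟩ := exists_slope hp
      exact ⟨e, fun _ => h⟩
    · obtain ⟨e, _⟩ := exists_slope (p := 0) (by simp)
      exact ⟨e, fun h => absurd h hp⟩
  choose e he using he
  obtain ⟨B, hB, hC⟩ := pdim_rb hs0 hs
  obtain ⟨T, hT⟩ : ∃ T : ℕ × ℕ × ℤ × (Fin 3 → ℤ) → Set (V 3), ∀ i p, p ∈ T i ↔ ‖p‖ ≤ 1 ∧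
      lineOf (a (e p)) (e p : E4) ∈ B i.1 ∧ ‖a (e p)‖ + 1 ≤ i.2.1 ∧ ⌈4 * a (e p) 3⌉ = i.2.2.1 ∧
      cell (1 / 4) (yy (i.2.2.1 / 4) (a (e p)) p) = i.2.2.2 :=
    ⟨fun i => {p | _}, fun _ _ => Iff.rfl⟩
  have h1 : Metric.closedBall (0 : V 3) 1 ⊆ ⋃ i, T i := by
    intro p hp
    obtain ⟨n, hn⟩ := Set.mem_iUnion.1 (hB (Set.mem_range_self (e p)))
    exact Set.mem_iUnion.2 ⟨(n, ⌈‖a (e p)‖ + 1⌉₊, ⌈4 * a (e p) 3⌉,
      cell (1 / 4) (yy ((⌈4 * a (e p) 3⌉ : ℤ) / 4) (a (e p)) p)),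
      (hT _ _).2 ⟨mem_closedBall_zero_iff.1 hp, hn, Nat.le_ceil _, rfl, rfl⟩⟩
  obtain ⟨⟨n, m, k, c⟩, hi⟩ : ∃ i, volume (T i) ≠ 0 := by
    by_contra h
    exact (Metric.measure_closedBall_pos volume (0 : V 3) one_pos).ne'
      (measure_mono_null h1 (measure_iUnion_null fun i => not_not.1 fun h' => h ⟨i, h'⟩))
  obtain ⟨C, hC⟩ := hC n
  have hk : ∀ p ∈ T (n, m, k, c), a (e p) 3 ≤ (k : ℝ) / 4 ∧ (k : ℝ) / 4 ≤ a (e p) 3 + 1 / 4 := by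
    intro p hp
    obtain ⟨_, _, _, h, _⟩ := (hT _ _).1 hp
    have h2 := Int.le_ceil (4 * a (e p) 3)
    have h3 := Int.ceil_lt_add_one (4 * a (e p) 3)
    rw [h] at h2 h3
    constructor <;> linarith
  refine ⟨T (n, m, k, c), fun p => (4 : ℝ) • (yy (k / 4) (a (e p)) p - fun j => 1 / 4 * (c j : ℝ)),
    Phi (k / 4) (fun j => 1 / 4 * (c j : ℝ)) '' K,
    C * ((2 * (8 * (2 + 24 * m)) + 2) ^ 3 * 34 ^ 3),
    ⟨hi, fun p hp => ?_, fun p hp t ht => ?_, fun r hr hr1 S hS => ?_⟩,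
    (phi_lip _ _).dimH_image_le K⟩
  · obtain ⟨h2, _, _, _, h3⟩ := (hT _ _).1 hp
    refine ⟨h2, ?_⟩
    have h4 := cell_corner (r := 1 / 4) (by norm_num) (yy (k / 4) (a (e p)) p)
    rw [show cell (1 / 4) (yy (k / 4) (a (e p)) p) = c from h3] at h4
    rw [norm_smul, Real.norm_ofNat]
    linarith
  · obtain ⟨τ, hτ, h2⟩ := seg_phi (he p ((hT _ _).1 hp).1) (hk p hp).1 (hk p hp).2
      (fun j => 1 / 4 * (c j : ℝ)) ht
    exact ⟨_, hK (e p) τ hτ, h2⟩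
  · obtain ⟨F, hF, hF'⟩ := hC r hr hr1
    have h2 : ∀ p : V 3, ∃ q, p ∈ S → q ∈ F ∧ dist (lineOf (a (e p)) (e p : E4)) q ≤ r := fun p => by
      by_cases hp : p ∈ S
      · obtain ⟨q, hq, h⟩ := Set.mem_iUnion₂.1 (hF' ((hT _ _).1 (hS hp)).2.1)
        exact ⟨q, fun _ => ⟨hq, h⟩⟩
      · exact ⟨0, fun h => absurd h hp⟩
    choose f hf using h2
    refine (img_fb S f _ F (fun p hp => (hf p hp).1)
      (M := (2 * (8 * (2 + 24 * m)) + 2) ^ 3 * 34 ^ 3) (by positivity) fun ω hω S' hS' h4 =>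
        pair_fb S' _ ((4 : ℝ) • (yy (k / 4) (a (e ω)) ω - fun j => 1 / 4 * (c j : ℝ))) ω hr
          (by positivity) fun p hp => ?_).trans ?_
    · obtain ⟨h5, _, h6, _⟩ := (hT _ _).1 (hS hω)
      have h7 : |a (e ω) 3| ≤ ‖a (e ω)‖ := by simpa using PiLp.norm_apply_le (a (e ω)) 3
      have h8 : ‖a (e ω)‖ + 1 ≤ (m : ℝ) := h6
      have h9 := hk ω (hS hω)
      have hd : dist (lineOf (a (e p)) (e p : E4)) (lineOf (a (e ω)) (e ω : E4)) ≤ 2 * r := by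
        have := dist_triangle_right (lineOf (a (e p)) (e p : E4)) (lineOf (a (e ω)) (e ω : E4))
          (f ω)
        have h10 := (hf p (hS' hp)).2
        rw [h4 p hp] at h10
        linarith [(hf ω hω).2]
      obtain ⟨h10, h11⟩ := line_lip (he p ((hT _ _).1 (hS (hS' hp))).1) (he ω h5) (h := k / 4)
        (M := m) (by linarith) (abs_le.2 ⟨by linarith [(abs_le.1 h7).1],
          by linarith [(abs_le.1 h7).2]⟩) hd
      refine ⟨?_, by linarith⟩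
      rw [← smul_sub, sub_sub_sub_cancel_right, norm_smul, Real.norm_ofNat]
      linarith
    · rw [mul_right_comm]
      exact mul_le_mul_of_nonneg_right hF (by positivity)

theorem robust (ε : NNReal) (hε : 0 < ε) : ∃ η : NNReal, 0 < η ∧ ∀ (K : Set E4)
    (a : Metric.sphere (0 : E4) 1 → E4),
    (∀ e, ∀ t ∈ Set.Icc (0 : ℝ) 1, a e + t • (e : E4) ∈ K) →
    pdim (Set.range fun e => lineOf (a e) (e : E4)) ≤ 3 + (η : ENNReal) →
    4 ≤ dimH K + (ε : ENNReal) := by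
  obtain ⟨d, hd0, hd4, hde⟩ : ∃ d : NNReal, (0 : ℝ) < d ∧ (d : ℝ) < 4 ∧ (4 : ℝ) ≤ d + ε := by
    have h0 : (0 : ℝ) < ε := hε
    refine ⟨⟨max (1 : ℝ) (4 - (ε : ℝ)), by positivity⟩, ?_, ?_, ?_⟩
    · exact lt_of_lt_of_le one_pos (le_max_left _ _)
    · exact max_lt (by norm_num) (by linarith)
    · have : (4 : ℝ) - (ε : ℝ) ≤ max (1 : ℝ) (4 - (ε : ℝ)) := le_max_right _ _
      change (4 : ℝ) ≤ max (1 : ℝ) (4 - (ε : ℝ)) + (ε : ℝ)
      linarith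
  obtain ⟨s, hs0, hc⟩ := core_fin pk_three hd0 hd4
  have hs1 : 0 < s.toNNReal := Real.toNNReal_pos.2 hs0
  refine ⟨s.toNNReal / 2, by positivity, fun K a hK hs => ?_⟩
  have h1 : pdim (Set.range fun e => lineOf (a e) (e : E4)) <
      ((3 + s.toNNReal : NNReal) : ENNReal) := by
    refine hs.trans_lt ?_
    have h2 : (3 : NNReal) + s.toNNReal / 2 < 3 + s.toNNReal :=
      add_lt_add_right (half_lt_self hs1) 3
    exact_mod_cast h2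
  obtain ⟨U, x, K', C, hF, hd⟩ := geo_rb K a hK hs0 h1
  have h3 : (d : ENNReal) ≤ dimH K :=
    not_lt.1 fun h => hc U x K' C hF (hausdorffMeasure_of_dimH_lt (hd.trans_lt h))
  refine le_trans ?_ (add_le_add_left h3 _)
  have h4 : (4 : NNReal) ≤ d + ε := by exact_mod_cast hde
  exact_mod_cast h4

end Vale.Agent.P127
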